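import Mathlib

/-! Cauchy integral formula for a resolvent along a closed curve, by an operator homotopy. -/

namespace Vale.Agent.P123

open Complex MeasureTheory intervalIntegral Real

noncomputable def ee (t : ℝ) : ℂ := Complex.exp (t * I)

lemma ee_hasDerivAt (t : ℝ) : HasDerivAt ee (I * ee t) t := by
  unfold ee
  have h1 : HasDerivAt (fun t : ℝ => (t : ℂ) * I) I t := by
    simpa using (Complex.ofRealCLM.hasDerivAt (x := t)).mul_const I
  simpa [mul_comm] using h1.cexp

lemma ee_continuous : Continuous ee := by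
  unfold ee; fun_prop

lemma ee_two_pi : ee (2 * π) = ee 0 := by
  unfold ee; simp [Complex.exp_two_pi_mul_I]

lemma norm_ee (t : ℝ) : ‖ee t‖ = 1 := by
  unfold ee; exact Complex.norm_exp_ofReal_mul_I t

lemma ee_ne_zero (t : ℝ) : ee t ≠ 0 := Complex.exp_ne_zero _

lemma eq_of_sq_bound {E : Type*} [NormedAddCommGroup E] (J : ℝ → E) (C : ℝ)
    (h : ∀ u ∈ Set.Icc (0:ℝ) 1, ∀ v ∈ Set.Icc (0:ℝ) 1, ‖J v - J u‖ ≤ C * (v - u) ^ 2) :
    J 1 = J 0 := by
  have key : ∀ n : ℕ, 0 < n → ‖J 1 - J 0‖ ≤ C / n := by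
    intro n hn
    have hn' : (0:ℝ) < n := by exact_mod_cast hn
    have : ∀ i : ℕ, i ≤ n → ‖J (i / n) - J 0‖ ≤ i * (C / n ^ 2) := by
      intro i
      induction i with
      | zero => intro _; simp
      | succ i ih =>
        intro hi
        have hi' : i ≤ n := by omega
        have h1 := ih hi'
        have hi1 : ((i:ℝ) + 1) ≤ n := by exact_mod_cast hi
        have hi0 : (0:ℝ) ≤ i := by positivity
        have h2 := h (i / n) ⟨by positivity, by rw [div_le_one hn']; linarith⟩
          (((i + 1 : ℕ) : ℝ) / n) ⟨by positivity, by rw [div_le_one hn']; push_cast; linarith⟩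
        have h3 : (((i + 1 : ℕ) : ℝ) / n - i / n) = 1 / n := by push_cast; ring
        rw [h3] at h2
        calc ‖J (((i + 1 : ℕ) : ℝ) / n) - J 0‖
            = ‖(J (((i + 1 : ℕ) : ℝ) / n) - J (i / n)) + (J (i / n) - J 0)‖ := by congr 1; abel
          _ ≤ C * (1 / n) ^ 2 + i * (C / n ^ 2) := (norm_add_le _ _).trans (add_le_add h2 h1)
          _ = ((i + 1 : ℕ) : ℝ) * (C / n ^ 2) := by push_cast; field_simp; ring
    have h1 := this n le_rfl
    rw [div_self hn'.ne'] at h1
    calc ‖J 1 - J 0‖ ≤ n * (C / n ^ 2) := h1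
      _ = C / n := by field_simp
  have : ‖J 1 - J 0‖ ≤ 0 := by
    apply ge_of_tendsto (tendsto_const_div_atTop_nhds_zero_nat C)
    filter_upwards [Filter.eventually_gt_atTop 0] with n hn using key n hn
  exact sub_eq_zero.mp (norm_le_zero_iff.mp this)

section
variable {𝔸 : Type*} [NormedRing 𝔸] [NormedAlgebra ℂ 𝔸] [CompleteSpace 𝔸]

lemma hasDerivAt_inv_curve (Γ : ℝ → 𝔸) (c : ℂ) (t : ℝ) (hΓ : HasDerivAt Γ (c • (1:𝔸)) t)
    (hu : IsUnit (Γ t)) :
    HasDerivAt (fun s => Ring.inverse (Γ s))
      (-(c • (Ring.inverse (Γ t) * Ring.inverse (Γ t)))) t := by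
  obtain ⟨x, hx⟩ := hu
  have h1 := hasFDerivAt_ringInverse (𝕜 := ℝ) x
  rw [hx] at h1
  have h2 := h1.comp_hasDerivAt t hΓ
  have h3 : Ring.inverse (Γ t) = ((x⁻¹ : 𝔸ˣ) : 𝔸) := by rw [← hx, Ring.inverse_unit]
  rw [h3]
  refine HasDerivAt.congr_deriv h2 ?_
  simp

omit [NormedAlgebra ℂ 𝔸] in
lemma continuous_inv_curve (Γ : ℝ → 𝔸) (hΓ : Continuous Γ) (hu : ∀ t, IsUnit (Γ t)) :
    Continuous (fun s => Ring.inverse (Γ s)) := by
  rw [continuous_iff_continuousAt]
  intro t
  obtain ⟨x, hx⟩ := hu t
  have := NormedRing.inverse_continuousAt x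
  rw [hx] at this
  exact this.comp (f := Γ) hΓ.continuousAt

/-- the homotopy -/
noncomputable def Gam (A : 𝔸) (g : ℝ → ℂ) (u t : ℝ) : 𝔸 :=
  ((1 - (u:ℂ)) * ee t + u * g t) • (1:𝔸) - (u:ℂ) • A

theorem cauchy_one (A : 𝔸) (g g' : ℝ → ℂ) (hg : ∀ t, HasDerivAt g (g' t) t)
    (hg' : Continuous g') (hper : g (2 * π) = g 0) (K : ℝ)
    (hU : ∀ u ∈ Set.Icc (0:ℝ) 1, ∀ t, IsUnit (Gam A g u t))
    (hK : ∀ u ∈ Set.Icc (0:ℝ) 1, ∀ t, ‖Ring.inverse (Gam A g u t)‖ ≤ K) :
    ∫ t in (0:ℝ)..(2 * π), g' t • Ring.inverse (g t • (1:𝔸) - A) = (2 * π * I : ℂ) • (1:𝔸) := by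
  have hgc : Continuous g := continuous_iff_continuousAt.mpr fun t => (hg t).continuousAt
  set S : ℝ → ℝ → 𝔸 := fun u t => Ring.inverse (Gam A g u t) with hS
  set c' : ℝ → ℝ → ℂ := fun u t => (1 - (u:ℂ)) * (I * ee t) + u * g' t with hc'
  set D : ℝ → 𝔸 := fun t => (g t - ee t) • (1:𝔸) - A with hD
  set D' : ℝ → ℂ := fun t => g' t - I * ee t with hD'
  have hee := ee_continuous
  have hGamc : ∀ u, Continuous (Gam A g u) := by intro u; unfold Gam; fun_prop
  have hSc : ∀ u ∈ Set.Icc (0:ℝ) 1, Continuous (S u) := fun u hu =>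
    continuous_inv_curve _ (hGamc u) (hU u hu)
  have hc'c : ∀ u, Continuous (c' u) := by intro u; simp only [hc']; fun_prop
  have hDc : Continuous D := by simp only [hD]; fun_prop
  have hD'c : Continuous D' := by simp only [hD']; fun_prop
  have hGamd : ∀ u t, HasDerivAt (Gam A g u) (c' u t • (1:𝔸)) t := by
    intro u t
    unfold Gam
    have h1 : HasDerivAt (fun t => (1 - (u:ℂ)) * ee t + u * g t) (c' u t) t :=
      ((ee_hasDerivAt t).const_mul _).add ((hg t).const_mul _)
    exact (h1.smul_const (1:𝔸)).sub_const _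
  have hDd : ∀ t, HasDerivAt D (D' t • (1:𝔸)) t := by
    intro t
    exact (((hg t).sub (ee_hasDerivAt t)).smul_const (1:𝔸)).sub_const _
  set J : ℝ → 𝔸 := fun u => ∫ t in (0:ℝ)..(2 * π), c' u t • S u t with hJ
  -- bounds
  obtain ⟨B1, hB1⟩ := (isCompact_uIcc (a := (0:ℝ)) (b := 2 * π)).exists_bound_of_continuousOn
    hDc.continuousOn
  obtain ⟨B2, hB2⟩ := (isCompact_uIcc (a := (0:ℝ)) (b := 2 * π)).exists_bound_of_continuousOn
    hD'c.continuousOn
  have hB1' : 0 ≤ B1 := (norm_nonneg _).trans (hB1 0 Set.left_mem_uIcc)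
  have hB2' : 0 ≤ B2 := (norm_nonneg _).trans (hB2 0 Set.left_mem_uIcc)
  have hK' : 0 ≤ K := (norm_nonneg _).trans (hK 0 ⟨le_rfl, zero_le_one⟩ 0)
  have hJ10 : J 1 = J 0 := by
    apply eq_of_sq_bound J ((B2 * (K * B1 * K) + (1 + B2) * (K * B1 * (K * B1 * K))) * (2 * π))
    intro u hu v hv
    have hzero : ∫ t in (0:ℝ)..(2 * π), (D' t • S u t - c' u t • (S u t * S u t * D t)) = 0 := by
      have hder : ∀ t ∈ Set.uIcc (0:ℝ) (2 * π), HasDerivAt (fun t => S u t * D t)
          (D' t • S u t - c' u t • (S u t * S u t * D t)) t := by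
        intro t _
        have h1 := (hasDerivAt_inv_curve (Gam A g u) (c' u t) t (hGamd u t) (hU u hu t)).mul (hDd t)
        refine HasDerivAt.congr_deriv h1 ?_
        simp only [hS, mul_smul_comm, mul_one, neg_mul, smul_mul_assoc]
        abel
      rw [integral_eq_sub_of_hasDerivAt hder]
      · simp only [hS, hD, Gam, hper, ee_two_pi, sub_self]
      · apply Continuous.intervalIntegrable
        have := hSc u hu
        have := hc'c u
        fun_prop
    have hi1 : IntervalIntegrable (fun t => c' v t • S v t) volume 0 (2 * π) := by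
      apply Continuous.intervalIntegrable
      have := hSc v hv
      have := hc'c v
      fun_prop
    have hi2 : IntervalIntegrable (fun t => c' u t • S u t) volume 0 (2 * π) := by
      apply Continuous.intervalIntegrable
      have := hSc u hu
      have := hc'c u
      fun_prop
    have hi3 : IntervalIntegrable
        (fun t => ((v:ℂ) - u) • (D' t • S u t - c' u t • (S u t * S u t * D t))) volume 0 (2 * π) := by
      apply Continuous.intervalIntegrable
      have := hSc u hu
      have := hc'c u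
      fun_prop
    have heq : J v - J u = ∫ t in (0:ℝ)..(2 * π), (c' v t • S v t - c' u t • S u t -
        ((v:ℂ) - u) • (D' t • S u t - c' u t • (S u t * S u t * D t))) := by
      rw [integral_sub (hi1.sub hi2) hi3, integral_sub hi1 hi2, intervalIntegral.integral_smul,
        hzero]
      simp [hJ]
    rw [heq]
    have hpi : |2 * π - 0| = 2 * π := by rw [sub_zero, abs_of_pos (by positivity)]
    have hbound : ∀ t ∈ Set.uIoc (0:ℝ) (2 * π), ‖c' v t • S v t - c' u t • S u t -
        ((v:ℂ) - u) • (D' t • S u t - c' u t • (S u t * S u t * D t))‖ ≤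
        (B2 * (K * B1 * K) + (1 + B2) * (K * B1 * (K * B1 * K))) * (v - u) ^ 2 := by
      intro t ht
      have ht' := Set.uIoc_subset_uIcc ht
      have hGv : Gam A g v t = Gam A g u t + ((v:ℂ) - u) • D t := by
        simp only [Gam, hD, smul_sub, smul_smul, sub_smul, add_smul]
        module
      have hcv : c' v t = c' u t + ((v:ℂ) - u) * D' t := by simp only [hc', hD']; ring
      have hres : S v t - S u t = -(((v:ℂ) - u) • (S u t * D t * S v t)) := by
        have e1 : S u t * Gam A g u t = 1 := Ring.inverse_mul_cancel _ (hU u hu t)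
        have e2 : Gam A g v t * S v t = 1 := Ring.mul_inverse_cancel _ (hU v hv t)
        calc S v t - S u t = S u t * Gam A g u t * S v t - S u t * (Gam A g v t * S v t) := by
              rw [e1, e2]; simp
          _ = _ := by rw [hGv]; simp [mul_add, add_mul, mul_assoc]
      have hcomm : S u t * D t = D t * S u t := by
        have hc : Commute (Gam A g u t) (D t) := by
          simp only [Gam, hD, Commute, SemiconjBy, mul_sub, sub_mul, smul_mul_assoc, mul_smul_comm,
            one_mul, mul_one, smul_sub, smul_smul]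
          module
        obtain ⟨x, hx⟩ := hU u hu t
        simp only [hS]
        rw [← hx, Ring.inverse_unit]
        rw [← hx] at hc
        exact (Commute.units_inv_left hc).eq
      have hX : c' v t • S v t - c' u t • S u t -
          ((v:ℂ) - u) • (D' t • S u t - c' u t • (S u t * S u t * D t)) =
          (((v:ℂ) - u) * D' t) • (S v t - S u t) -
            (c' u t * ((v:ℂ) - u)) • (S u t * D t * (S v t - S u t)) := by
        have e3 : S u t * D t * S u t = S u t * S u t * D t := by
          rw [mul_assoc, ← hcomm, mul_assoc]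
        have e4 : S v t = S u t - ((v:ℂ) - u) • (S u t * D t * S v t) := by
          rw [sub_eq_add_neg, ← hres]; abel
        rw [mul_sub (S u t * D t), e3, hcv]
        have e5 : c' u t • S v t = c' u t • S u t - (c' u t * ((v:ℂ) - u)) • (S u t * D t * S v t) := by
          conv_lhs => rw [e4]
          rw [smul_sub, smul_smul]
        rw [add_smul, e5]
        module
      have hvu : ‖((v:ℂ) - u)‖ = |v - u| := by
        rw [← Complex.ofReal_sub, Complex.norm_real, Real.norm_eq_abs]
      have hSu := hK u hu t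
      have hSv := hK v hv t
      have hDt := hB1 t ht'
      have hD't := hB2 t ht'
      have hdiff : ‖S v t - S u t‖ ≤ |v - u| * (K * B1 * K) := by
        rw [hres, norm_neg, norm_smul, hvu]
        gcongr
        calc ‖S u t * D t * S v t‖ ≤ ‖S u t‖ * ‖D t‖ * ‖S v t‖ :=
              (norm_mul_le _ _).trans (by gcongr; exact norm_mul_le _ _)
          _ ≤ K * B1 * K := by gcongr
      have hcu : ‖c' u t‖ ≤ 1 + B2 := by
        have : c' u t = I * ee t + u * D' t := by simp only [hc', hD']; ring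
        rw [this]
        calc ‖I * ee t + u * D' t‖ ≤ ‖I * ee t‖ + ‖(u:ℂ) * D' t‖ := norm_add_le _ _
          _ = 1 + |u| * ‖D' t‖ := by simp [norm_ee]
          _ ≤ 1 + 1 * B2 := by
            gcongr
            rw [abs_of_nonneg hu.1]; exact hu.2
          _ = 1 + B2 := by ring
      rw [hX]
      calc ‖(((v:ℂ) - u) * D' t) • (S v t - S u t) -
            (c' u t * ((v:ℂ) - u)) • (S u t * D t * (S v t - S u t))‖
          ≤ ‖(((v:ℂ) - u) * D' t) • (S v t - S u t)‖ +
            ‖(c' u t * ((v:ℂ) - u)) • (S u t * D t * (S v t - S u t))‖ := norm_sub_le _ _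
        _ ≤ |v - u| * B2 * (|v - u| * (K * B1 * K)) +
            (1 + B2) * |v - u| * (K * B1 * (|v - u| * (K * B1 * K))) := by
          rw [norm_smul, norm_smul, norm_mul, norm_mul, hvu]
          gcongr
          calc ‖S u t * D t * (S v t - S u t)‖ ≤ ‖S u t‖ * ‖D t‖ * ‖S v t - S u t‖ :=
                (norm_mul_le _ _).trans (by gcongr; exact norm_mul_le _ _)
            _ ≤ K * B1 * (|v - u| * (K * B1 * K)) := by gcongr
        _ = (B2 * (K * B1 * K) + (1 + B2) * (K * B1 * (K * B1 * K))) * |v - u| ^ 2 := by ring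
        _ = _ := by rw [sq_abs]
    have := intervalIntegral.norm_integral_le_of_norm_le_const hbound
    rw [hpi] at this
    linarith
  have hJ1 : J 1 = ∫ t in (0:ℝ)..(2 * π), g' t • Ring.inverse (g t • (1:𝔸) - A) := by
    simp [hJ, hc', hS, Gam]
  have hJ0 : J 0 = (2 * π * I : ℂ) • (1:𝔸) := by
    have : ∀ t, c' 0 t • S 0 t = I • (1:𝔸) := by
      intro t
      have e1 : Gam A g 0 t * S 0 t = 1 := Ring.mul_inverse_cancel _ (hU 0 ⟨le_rfl, zero_le_one⟩ t)
      have e2 : Gam A g 0 t = ee t • (1:𝔸) := by simp [Gam]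
      rw [e2, smul_mul_assoc, one_mul] at e1
      simp only [hc', Complex.ofReal_zero, sub_zero, one_mul, zero_mul, add_zero]
      rw [mul_smul, e1]
    simp only [hJ, this]
    rw [intervalIntegral.integral_const, sub_zero, ← smul_assoc]
    congr 1
    simp
  rw [← hJ1, hJ10, hJ0]

/-- Cauchy formula for polynomials. -/
theorem cauchy_poly (A : 𝔸) (g g' : ℝ → ℂ) (hg : ∀ t, HasDerivAt g (g' t) t)
    (hg' : Continuous g') (hper : g (2 * π) = g 0)
    (hU : ∀ t, IsUnit (g t • (1:𝔸) - A))
    (h1 : ∫ t in (0:ℝ)..(2 * π), g' t • Ring.inverse (g t • (1:𝔸) - A) =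
      (2 * π * I : ℂ) • (1:𝔸)) (Q : Polynomial ℂ) :
    ∫ t in (0:ℝ)..(2 * π), (g' t * Q.eval (g t)) • Ring.inverse (g t • (1:𝔸) - A) =
      (2 * π * I : ℂ) • Polynomial.aeval A Q := by
  have hgc : Continuous g := continuous_iff_continuousAt.mpr fun t => (hg t).continuousAt
  have hRc : Continuous (fun t => Ring.inverse (g t • (1:𝔸) - A)) :=
    continuous_inv_curve _ (by fun_prop) hU
  have hmon : ∀ k : ℕ, ∫ t in (0:ℝ)..(2 * π), (g' t * g t ^ k) • Ring.inverse (g t • (1:𝔸) - A) =
      (2 * π * I : ℂ) • A ^ k := by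
    intro k
    induction k with
    | zero => simpa using h1
    | succ k ih =>
      have e : ∀ t, (g' t * g t ^ (k + 1)) • Ring.inverse (g t • (1:𝔸) - A) =
          (g' t * g t ^ k) • (1:𝔸) + A * ((g' t * g t ^ k) • Ring.inverse (g t • (1:𝔸) - A)) := by
        intro t
        have e1 : (g t • (1:𝔸) - A) * Ring.inverse (g t • (1:𝔸) - A) = 1 :=
          Ring.mul_inverse_cancel _ (hU t)
        rw [sub_mul, smul_mul_assoc, one_mul, sub_eq_iff_eq_add] at e1
        rw [pow_succ, ← mul_assoc, mul_smul, e1, smul_add, mul_smul_comm]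
      simp only [e]
      rw [intervalIntegral.integral_add (by apply Continuous.intervalIntegrable; fun_prop)
        (by apply Continuous.intervalIntegrable; fun_prop)]
      have z : ∫ t in (0:ℝ)..(2 * π), (g' t * g t ^ k) • (1:𝔸) = 0 := by
        have hder : ∀ t ∈ Set.uIcc (0:ℝ) (2 * π),
            HasDerivAt (fun t => (g t ^ (k + 1) / (k + 1)) • (1:𝔸)) ((g' t * g t ^ k) • (1:𝔸)) t := by
          intro t _
          have := (((hg t).pow (k + 1)).div_const ((k:ℂ) + 1)).smul_const (1:𝔸)
          refine HasDerivAt.congr_deriv this ?_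
          congr 1
          have : ((k:ℂ) + 1) ≠ 0 := by exact_mod_cast Nat.succ_ne_zero k
          push_cast
          field_simp
        rw [integral_eq_sub_of_hasDerivAt hder (by apply Continuous.intervalIntegrable; fun_prop),
          hper, sub_self]
      rw [z, zero_add]
      have := (ContinuousLinearMap.mul ℝ 𝔸 A).intervalIntegral_comp_comm
        (f := fun t => (g' t * g t ^ k) • Ring.inverse (g t • (1:𝔸) - A)) (a := 0) (b := 2 * π)
        (μ := volume) (by apply Continuous.intervalIntegrable; fun_prop)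
      simp only [ContinuousLinearMap.mul_apply'] at this
      rw [this, ih, mul_smul_comm, pow_succ']
  induction Q using Polynomial.induction_on' with
  | add p q hp hq =>
    simp only [Polynomial.eval_add, mul_add, add_smul, map_add, smul_add]
    rw [intervalIntegral.integral_add (by apply Continuous.intervalIntegrable; fun_prop)
      (by apply Continuous.intervalIntegrable; fun_prop), hp, hq]
  | monomial n a =>
    simp only [Polynomial.eval_monomial, Polynomial.aeval_monomial]
    have : ∀ t, (g' t * (a * g t ^ n)) • Ring.inverse (g t • (1:𝔸) - A) =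
        a • ((g' t * g t ^ n) • Ring.inverse (g t • (1:𝔸) - A)) := by
      intro t; rw [smul_smul]; congr 1; ring
    simp only [this]
    rw [intervalIntegral.integral_smul, hmon, Algebra.algebraMap_eq_smul_one, smul_mul_assoc,
      one_mul, smul_comm]

theorem cauchy_poly_functional (A : 𝔸) (g g' : ℝ → ℂ) (hg : ∀ t, HasDerivAt g (g' t) t)
    (hg' : Continuous g') (hper : g (2 * π) = g 0) (K : ℝ)
    (hU : ∀ u ∈ Set.Icc (0:ℝ) 1, ∀ t, IsUnit (Gam A g u t))
    (hK : ∀ u ∈ Set.Icc (0:ℝ) 1, ∀ t, ‖Ring.inverse (Gam A g u t)‖ ≤ K)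
    (Q : Polynomial ℂ) (L : 𝔸 →L[ℂ] ℂ) :
    ∫ t in (0:ℝ)..(2 * π), (g' t * Q.eval (g t)) * L (Ring.inverse (g t • (1:𝔸) - A)) =
      (2 * π * I : ℂ) * L (Polynomial.aeval A Q) := by
  have hgc : Continuous g := continuous_iff_continuousAt.mpr fun t => (hg t).continuousAt
  have hU1 : ∀ t, IsUnit (g t • (1:𝔸) - A) := by
    intro t
    have := hU 1 ⟨zero_le_one, le_rfl⟩ t
    simpa [Gam] using this
  have hRc : Continuous (fun t => Ring.inverse (g t • (1:𝔸) - A)) :=
    continuous_inv_curve _ (by fun_prop) hU1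
  have h := cauchy_poly A g g' hg hg' hper hU1 (cauchy_one A g g' hg hg' hper K hU hK) Q
  have h2 := (L.restrictScalars ℝ).intervalIntegral_comp_comm
    (f := fun t => (g' t * Q.eval (g t)) • Ring.inverse (g t • (1:𝔸) - A)) (a := 0) (b := 2 * π)
    (μ := volume) (by apply Continuous.intervalIntegrable; fun_prop)
  rw [h] at h2
  simpa using h2

end

end Vale.Agent.P123
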