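import Mathlib

/-! The core inequality: a positive operator kernel reproducing all powers of T forces norm at most 2. -/

namespace Vale.Agent.P123

open Complex MeasureTheory Real
open scoped ComplexConjugate InnerProductSpace

variable {H : Type*} [NormedAddCommGroup H] [InnerProductSpace ℂ H] [CompleteSpace H]

omit [CompleteSpace H] in
lemma re_integral {f : ℝ → ℂ} (hf : Continuous f) (a b : ℝ) :
    (∫ t in a..b, f t).re = ∫ t in a..b, (f t).re := by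
  have := Complex.reCLM.intervalIntegral_comp_comm (f := f) (a := a) (b := b) (μ := volume)
    (hf.intervalIntegrable _ _)
  simpa using this.symm

omit [CompleteSpace H] in
lemma core_ineq (T : H →L[ℂ] H) (N : ℝ → H →L[ℂ] H) (φ : ℝ → ℂ) (L : ℝ) (hL : 0 ≤ L)
    (hN : Continuous N) (hφ : Continuous φ) (hφ1 : ∀ t, ‖φ t‖ ≤ 1)
    (hpos : ∀ t u, 0 ≤ (⟪u, N t u⟫_ℂ).re)
    (hrep : ∀ (k : ℕ) u v, ∫ t in (0:ℝ)..L, φ t ^ k * ⟪v, N t u⟫_ℂ = ⟪v, (T ^ k) u⟫_ℂ)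
    (x : H) (n : ℕ) (s κ : ℝ) :
    0 ≤ (s ^ 2 - s * κ + s) * ‖(T ^ (n + 1)) x‖ ^ 2 + κ ^ 2 * ‖x‖ ^ 2 + ‖T x‖ ^ 2 - κ * ‖T x‖ ^ 2
      - s * κ * (∫ t in (0:ℝ)..L, conj (φ t) ^ (n + 1) * ⟪x, N t ((T ^ (n + 1)) x)⟫_ℂ).re
      + s * (∫ t in (0:ℝ)..L, conj (φ t) ^ n * ⟪T x, N t ((T ^ (n + 1)) x)⟫_ℂ).re
      - κ * (∫ t in (0:ℝ)..L, conj (φ t) ^ 1 * ⟪x, N t ((T ^ 1) x)⟫_ℂ).re := by
  set a := (T ^ (n + 1)) x with ha
  set c := T x with hc
  have hcont : ∀ u v : H, Continuous fun t => ⟪v, N t u⟫_ℂ := by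
    intro u v; fun_prop
  have hφc : Continuous fun t => conj (φ t) := Complex.continuous_conj.comp hφ
  set F : ℝ → ℂ := fun t => (s:ℂ) ^ 2 * (φ t ^ 0 * ⟪a, N t a⟫_ℂ) + (κ:ℂ) ^ 2 * (φ t ^ 0 * ⟪x, N t x⟫_ℂ)
    + φ t ^ 0 * ⟪c, N t c⟫_ℂ - (s * κ : ℂ) * (conj (φ t) ^ (n + 1) * ⟪x, N t a⟫_ℂ)
    - (s * κ : ℂ) * (φ t ^ (n + 1) * ⟪a, N t x⟫_ℂ) + (s:ℂ) * (conj (φ t) ^ n * ⟪c, N t a⟫_ℂ)
    + (s:ℂ) * (φ t ^ n * ⟪a, N t c⟫_ℂ) - (κ:ℂ) * (φ t ^ 1 * ⟪c, N t x⟫_ℂ)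
    - (κ:ℂ) * (conj (φ t) ^ 1 * ⟪x, N t c⟫_ℂ) with hF
  have hFc : Continuous F := by
    simp only [hF]
    have h1 := hcont a a
    have h2 := hcont x x
    have h3 := hcont c c
    have h4 := hcont a x
    have h5 := hcont x a
    have h6 := hcont a c
    have h7 := hcont c a
    have h8 := hcont x c
    have h9 := hcont c x
    fun_prop
  have hFpos : ∀ t, 0 ≤ (F t).re := by
    intro t
    set z : H := ((s:ℂ) * conj (φ t) ^ n) • a - ((κ:ℂ) * φ t) • x + c with hz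
    have e : F t = ⟪z, N t z⟫_ℂ + ((s ^ 2 * (1 - (‖φ t‖ ^ 2) ^ n) : ℝ) : ℂ) * ⟪a, N t a⟫_ℂ +
        ((κ ^ 2 * (1 - ‖φ t‖ ^ 2) : ℝ) : ℂ) * ⟪x, N t x⟫_ℂ := by
      have e1 : ((‖φ t‖ : ℂ)) ^ 2 = φ t * conj (φ t) := by
        rw [Complex.mul_conj, Complex.normSq_eq_norm_sq]; push_cast; ring
      simp only [hF, hz, map_add, map_sub, map_smul, inner_add_left, inner_add_right,
        inner_sub_left, inner_sub_right, inner_smul_left, inner_smul_right, map_mul, map_pow,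
        Complex.conj_ofReal, Complex.conj_conj]
      push_cast
      rw [e1]
      ring
    rw [e]
    simp only [Complex.add_re, Complex.re_ofReal_mul]
    have h1 := hpos t z
    have h2 := hpos t a
    have h3 := hpos t x
    have h4 : ‖φ t‖ ^ 2 ≤ 1 := pow_le_one₀ (norm_nonneg _) (hφ1 t)
    have h5 : (‖φ t‖ ^ 2) ^ n ≤ 1 := pow_le_one₀ (by positivity) h4
    have h6 : 0 ≤ s ^ 2 * (1 - (‖φ t‖ ^ 2) ^ n) := mul_nonneg (sq_nonneg _) (by linarith)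
    have h7 : 0 ≤ κ ^ 2 * (1 - ‖φ t‖ ^ 2) := mul_nonneg (sq_nonneg _) (by linarith)
    have := mul_nonneg h6 h2
    have := mul_nonneg h7 h3
    linarith
  have hint : 0 ≤ (∫ t in (0:ℝ)..L, F t).re := by
    rw [re_integral hFc]
    exact intervalIntegral.integral_nonneg hL fun t _ => hFpos t
  have hI : ∀ (k : ℕ) (u v : H), IntervalIntegrable (fun t => φ t ^ k * ⟪v, N t u⟫_ℂ) volume 0 L := by
    intro k u v
    have := hcont u v
    apply Continuous.intervalIntegrable; fun_prop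
  have hI' : ∀ (k : ℕ) (u v : H),
      IntervalIntegrable (fun t => conj (φ t) ^ k * ⟪v, N t u⟫_ℂ) volume 0 L := by
    intro k u v
    have := hcont u v
    apply Continuous.intervalIntegrable; fun_prop
  have hsplit : ∫ t in (0:ℝ)..L, F t = (s:ℂ) ^ 2 * ⟪a, a⟫_ℂ + (κ:ℂ) ^ 2 * ⟪x, x⟫_ℂ + ⟪c, c⟫_ℂ
      - (s * κ : ℂ) * (∫ t in (0:ℝ)..L, conj (φ t) ^ (n + 1) * ⟪x, N t a⟫_ℂ)
      - (s * κ : ℂ) * ⟪a, a⟫_ℂ
      + (s:ℂ) * (∫ t in (0:ℝ)..L, conj (φ t) ^ n * ⟪c, N t a⟫_ℂ)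
      + (s:ℂ) * ⟪a, a⟫_ℂ - (κ:ℂ) * ⟪c, c⟫_ℂ
      - (κ:ℂ) * (∫ t in (0:ℝ)..L, conj (φ t) ^ 1 * ⟪x, N t c⟫_ℂ) := by
    simp only [hF]
    have i1 := (hI 0 a a).const_mul ((s:ℂ) ^ 2)
    have i2 := (hI 0 x x).const_mul ((κ:ℂ) ^ 2)
    have i3 := hI 0 c c
    have i4 := (hI' (n + 1) a x).const_mul (s * κ : ℂ)
    have i5 := (hI (n + 1) x a).const_mul (s * κ : ℂ)
    have i6 := (hI' n a c).const_mul (s : ℂ)
    have i7 := (hI n c a).const_mul (s : ℂ)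
    have i8 := (hI 1 x c).const_mul (κ : ℂ)
    have i9 := (hI' 1 c x).const_mul (κ : ℂ)
    rw [intervalIntegral.integral_sub
        (((((((i1.add i2).add i3).sub i4).sub i5).add i6).add i7).sub i8) i9,
      intervalIntegral.integral_sub ((((((i1.add i2).add i3).sub i4).sub i5).add i6).add i7) i8,
      intervalIntegral.integral_add (((((i1.add i2).add i3).sub i4).sub i5).add i6) i7,
      intervalIntegral.integral_add ((((i1.add i2).add i3).sub i4).sub i5) i6,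
      intervalIntegral.integral_sub (((i1.add i2).add i3).sub i4) i5,
      intervalIntegral.integral_sub ((i1.add i2).add i3) i4,
      intervalIntegral.integral_add (i1.add i2) i3, intervalIntegral.integral_add i1 i2]
    simp only [intervalIntegral.integral_const_mul, hrep]
    have e1 : (T ^ n) c = a := by simp only [ha, hc, pow_succ]; rfl
    rw [e1]
    simp [ha, hc]
  rw [hsplit] at hint
  have hsq : ∀ u : H, ⟪u, u⟫_ℂ = ((‖u‖ ^ 2 : ℝ) : ℂ) := by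
    intro u; rw [inner_self_eq_norm_sq_to_K]; push_cast; rfl
  rw [hsq a, hsq x, hsq c] at hint
  have e2 : (T ^ 1) x = c := by simp [hc]
  rw [e2]
  simp only [← Complex.ofReal_mul, ← Complex.ofReal_pow, Complex.add_re, Complex.sub_re,
    Complex.ofReal_re, Complex.re_ofReal_mul] at hint
  linarith

theorem core (T : H →L[ℂ] H) (N : ℝ → H →L[ℂ] H) (φ : ℝ → ℂ) (L : ℝ) (hL : 0 ≤ L)
    (hN : Continuous N) (hφ : Continuous φ) (hφ1 : ∀ t, ‖φ t‖ ≤ 1)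
    (hcomm : ∀ t u, N t (T u) = T (N t u))
    (hpos : ∀ t u, 0 ≤ (⟪u, N t u⟫_ℂ).re)
    (hrep : ∀ (k : ℕ) u v, ∫ t in (0:ℝ)..L, φ t ^ k * ⟪v, N t u⟫_ℂ = ⟪v, (T ^ k) u⟫_ℂ) :
    ‖T‖ ≤ 2 := by
  by_contra hcon
  push Not at hcon
  set κ := ‖T‖ with hκ
  obtain ⟨B, hB⟩ := (isCompact_uIcc (a := (0:ℝ)) (b := L)).exists_bound_of_continuousOn
    hN.continuousOn
  have hB0 : 0 ≤ B := (norm_nonneg _).trans (hB 0 Set.left_mem_uIcc)
  have hLabs : |L - 0| = L := by rw [sub_zero, abs_of_nonneg hL]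
  have hbd : ∀ (ψ : ℝ → ℂ), (∀ t, ‖ψ t‖ ≤ 1) → ∀ u v : H,
      ‖∫ t in (0:ℝ)..L, ψ t * ⟪v, N t u⟫_ℂ‖ ≤ B * L * ‖v‖ * ‖u‖ := by
    intro ψ hψ u v
    have := intervalIntegral.norm_integral_le_of_norm_le_const (a := 0) (b := L)
      (f := fun t => ψ t * ⟪v, N t u⟫_ℂ) (C := ‖v‖ * (B * ‖u‖)) (by
        intro t ht
        have ht' := hB t (Set.uIoc_subset_uIcc ht)
        rw [norm_mul]
        calc ‖ψ t‖ * ‖⟪v, N t u⟫_ℂ‖ ≤ 1 * (‖v‖ * ‖N t u‖) := by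
              gcongr
              · exact hψ t
              · exact norm_inner_le_norm _ _
          _ ≤ 1 * (‖v‖ * (B * ‖u‖)) := by
              gcongr
              exact ((N t).le_opNorm u).trans (by gcongr)
          _ = _ := by ring)
    rw [hLabs] at this
    linarith
  set K := B * L with hK
  have hK0 : 0 ≤ K := by positivity
  have hpow1 : ∀ k : ℕ, ∀ t, ‖φ t ^ k‖ ≤ 1 := by
    intro k t; rw [norm_pow]; exact pow_le_one₀ (norm_nonneg _) (hφ1 t)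
  have hpow2 : ∀ k : ℕ, ∀ t, ‖conj (φ t) ^ k‖ ≤ 1 := by
    intro k t; rw [norm_pow, Complex.norm_conj]; exact pow_le_one₀ (norm_nonneg _) (hφ1 t)
  have hTk : ∀ (k : ℕ) (u : H), ‖(T ^ k) u‖ ≤ K * ‖u‖ := by
    intro k u
    have h1 := hbd (fun t => φ t ^ k) (hpow1 k) u ((T ^ k) u)
    rw [hrep, inner_self_eq_norm_sq_to_K] at h1
    simp only [norm_pow, Complex.coe_algebraMap, Complex.norm_real, norm_norm] at h1
    rcases (norm_nonneg ((T ^ k) u)).eq_or_lt with h | h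
    · rw [← h]; positivity
    · nlinarith
  -- the quantitative statement
  have main : ∀ x : H, ‖x‖ = 1 →
      κ ^ 2 * (κ - 2) ≤ (κ - 1) * (κ ^ 2 - ‖T x‖ ^ 2) +
        K * K * Real.sqrt (κ ^ 2 * (κ ^ 2 - ‖T x‖ ^ 2)) := by
    intro x hx
    set m : ℕ → ℝ := fun k =>
      (∫ t in (0:ℝ)..L, conj (φ t) ^ k * ⟪x, N t ((T ^ k) x)⟫_ℂ).re with hm
    set δ : H := ContinuousLinearMap.adjoint T (T x) - ((κ ^ 2 : ℝ) : ℂ) • x with hδ
    set er : ℝ := K * K * Real.sqrt (κ ^ 2 * (κ ^ 2 - ‖T x‖ ^ 2)) with her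
    have hδn : ‖δ‖ ≤ Real.sqrt (κ ^ 2 * (κ ^ 2 - ‖T x‖ ^ 2)) := by
      apply Real.le_sqrt_of_sq_le
      have h1 : ‖ContinuousLinearMap.adjoint T (T x)‖ ≤ κ * ‖T x‖ := by
        have := (ContinuousLinearMap.adjoint T).le_opNorm (T x)
        rwa [LinearIsometryEquiv.norm_map] at this
      have h2 : ‖δ‖ ^ 2 = ‖ContinuousLinearMap.adjoint T (T x)‖ ^ 2 - 2 * (κ ^ 2 * ‖T x‖ ^ 2) +
          (κ ^ 2) ^ 2 := by
        rw [hδ, @norm_sub_sq ℂ, inner_smul_right, ContinuousLinearMap.adjoint_inner_left,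
          inner_self_eq_norm_sq_to_K, norm_smul, hx]
        simp only [Complex.coe_algebraMap, ← Complex.ofReal_pow, ← Complex.ofReal_mul,
          RCLike.re_to_complex, Complex.ofReal_re, Complex.norm_real, Real.norm_eq_abs, mul_one,
          sq_abs]
      have h3 : ‖ContinuousLinearMap.adjoint T (T x)‖ ^ 2 ≤ (κ * ‖T x‖) ^ 2 := by gcongr
      nlinarith
    have hm' : ∀ n : ℕ, (∫ t in (0:ℝ)..L, conj (φ t) ^ n * ⟪T x, N t ((T ^ (n + 1)) x)⟫_ℂ).re ≤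
        κ ^ 2 * m n + er := by
      intro n
      have e : ∀ t, conj (φ t) ^ n * ⟪T x, N t ((T ^ (n + 1)) x)⟫_ℂ =
          ((κ ^ 2 : ℝ) : ℂ) * (conj (φ t) ^ n * ⟪x, N t ((T ^ n) x)⟫_ℂ) +
            conj (φ t) ^ n * ⟪δ, N t ((T ^ n) x)⟫_ℂ := by
        intro t
        have e1 : (T ^ (n + 1)) x = T ((T ^ n) x) := by rw [pow_succ']; rfl
        rw [e1, hcomm, ← ContinuousLinearMap.adjoint_inner_left, hδ, inner_sub_left,
          inner_smul_left, Complex.conj_ofReal]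
        ring
      have hφc : Continuous fun t => conj (φ t) := Complex.continuous_conj.comp hφ
      simp only [e]
      rw [intervalIntegral.integral_add (by apply Continuous.intervalIntegrable; fun_prop)
        (by apply Continuous.intervalIntegrable; fun_prop), intervalIntegral.integral_const_mul,
        Complex.add_re, Complex.re_ofReal_mul]
      have h1 := hbd (fun t => conj (φ t) ^ n) (hpow2 n) ((T ^ n) x) δ
      have h2 := hTk n x
      rw [hx, mul_one] at h2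
      have h3 : K * ‖δ‖ * ‖(T ^ n) x‖ ≤ er := by
        rw [her]
        calc K * ‖δ‖ * ‖(T ^ n) x‖ ≤ K * Real.sqrt (κ ^ 2 * (κ ^ 2 - ‖T x‖ ^ 2)) * K := by gcongr
          _ = _ := by ring
      have h4 := Complex.re_le_norm (∫ t in (0:ℝ)..L, conj (φ t) ^ n * ⟪δ, N t ((T ^ n) x)⟫_ℂ)
      simp only [hm]
      linarith
    have hmbd : ∀ k, -(K * K) ≤ m k := by
      intro k
      have h1 := hbd (fun t => conj (φ t) ^ k) (hpow2 k) ((T ^ k) x) x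
      have h2 := hTk k x
      rw [hx, mul_one] at h2
      rw [hx, mul_one] at h1
      have h3 := Complex.abs_re_le_norm (∫ t in (0:ℝ)..L, conj (φ t) ^ k * ⟪x, N t ((T ^ k) x)⟫_ℂ)
      have h4 : K * ‖(T ^ k) x‖ ≤ K * K := by gcongr
      have := (abs_le.mp (h3.trans (h1.trans h4))).1
      simpa [hm] using this
    set γ : ℝ := κ ^ 2 + ‖T x‖ ^ 2 - κ * ‖T x‖ ^ 2 - κ * m 1 with hγ
    have hγ0 : 0 ≤ γ := by
      have := core_ineq T N φ L hL hN hφ hφ1 hpos hrep x 0 0 κ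
      rw [hx] at this
      simp only [hγ, hm]
      linarith
    have hrec : ∀ n, (κ - 1) * (κ * m (n + 1) - κ ^ 2 * m n - er) ≤ γ := by
      intro n
      have h1 := core_ineq T N φ L hL hN hφ hφ1 hpos hrep x n (κ - 1) κ
      rw [hx] at h1
      have h2 := hm' n
      have h3 : (κ - 1) * (∫ t in (0:ℝ)..L, conj (φ t) ^ n * ⟪T x, N t ((T ^ (n + 1)) x)⟫_ℂ).re ≤
          (κ - 1) * (κ ^ 2 * m n + er) := by gcongr; linarith
      have h4 : ((κ - 1) ^ 2 - (κ - 1) * κ + (κ - 1)) = 0 := by ring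
      rw [h4] at h1
      simp only [hγ, hm] at h3 ⊢
      linarith
    have hbdd : BddBelow (Set.range m) := ⟨-(K * K), by rintro _ ⟨k, rfl⟩; exact hmbd k⟩
    set μ := ⨅ k, m k with hμ
    have hμle : ∀ k, μ ≤ m k := fun k => ciInf_le hbdd k
    have hs : 0 < κ - 1 := by linarith
    have hκ0 : 0 < κ := by linarith
    have hμ2 : (κ * μ - er - γ / (κ - 1)) / κ ^ 2 ≤ μ := by
      apply le_ciInf
      intro n
      rw [div_le_iff₀ (by positivity)]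
      have h1 := hrec n
      have h2 : κ * m (n + 1) - κ ^ 2 * m n - er ≤ γ / (κ - 1) := by
        rw [le_div_iff₀ hs]; linarith
      have h3 : κ * μ ≤ κ * m (n + 1) := by gcongr; exact hμle _
      linarith
    rw [div_le_iff₀ (by positivity)] at hμ2
    have h5 : κ * (κ - 1) * μ ≤ κ * (κ - 1) * m 1 := by gcongr; exact hμle 1
    have her0 : 0 ≤ er := by positivity
    have h6 : γ / (κ - 1) ≤ γ * (κ - 1) := by
      rw [div_le_iff₀ hs]
      have : 1 ≤ (κ - 1) * (κ - 1) := by nlinarith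
      nlinarith
    -- (κ-1) κ m1 ≥ -er - γ/(κ-1) ≥ -er - γ (κ-1)
    have h7 : -(er) - γ * (κ - 1) ≤ (κ - 1) * (κ * m 1) := by nlinarith
    have h8 : -(er) ≤ (κ - 1) * (κ ^ 2 + ‖T x‖ ^ 2 - κ * ‖T x‖ ^ 2) := by
      have : κ * m 1 + γ = κ ^ 2 + ‖T x‖ ^ 2 - κ * ‖T x‖ ^ 2 := by simp only [hγ]; ring
      rw [← this]; linarith
    have h9 : -(er) ≤ κ ^ 2 + ‖T x‖ ^ 2 - κ * ‖T x‖ ^ 2 := by
      by_contra h
      push Not at h
      have : (κ - 1) * (κ ^ 2 + ‖T x‖ ^ 2 - κ * ‖T x‖ ^ 2) ≤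
          1 * (κ ^ 2 + ‖T x‖ ^ 2 - κ * ‖T x‖ ^ 2) := by
        apply mul_le_mul_of_nonpos_right <;> linarith
      linarith
    nlinarith
  -- let the defect tend to zero
  have hcontf : Continuous fun y : ℝ =>
      (κ - 1) * (κ ^ 2 - y ^ 2) + K * K * Real.sqrt (κ ^ 2 * (κ ^ 2 - y ^ 2)) := by fun_prop
  have hpos' : 0 < κ ^ 2 * (κ - 2) := by
    have : 0 < κ := by linarith
    have : 0 < κ - 2 := by linarith
    positivity
  have hev : ∀ᶠ y in nhds κ,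
      (κ - 1) * (κ ^ 2 - y ^ 2) + K * K * Real.sqrt (κ ^ 2 * (κ ^ 2 - y ^ 2)) < κ ^ 2 * (κ - 2) := by
    apply hcontf.continuousAt.eventually_lt continuousAt_const
    simpa using hpos'
  obtain ⟨ε, hε, hball⟩ := Metric.eventually_nhds_iff.mp hev
  obtain ⟨x, hx1, hx2⟩ := T.exists_lt_apply_of_lt_opNorm (r := max (κ - ε) 0)
    (max_lt (by linarith) (by linarith))
  have hx0 : x ≠ 0 := by
    rintro rfl
    simp at hx2
  have hxn : 0 < ‖x‖ := norm_pos_iff.mpr hx0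
  set y : H := ((‖x‖⁻¹ : ℝ) : ℂ) • x with hy
  have hy1 : ‖y‖ = 1 := by
    rw [hy, norm_smul, Complex.norm_real, norm_inv, norm_norm, inv_mul_cancel₀ hxn.ne']
  have hTy : ‖T y‖ = ‖x‖⁻¹ * ‖T x‖ := by
    rw [hy, map_smul, norm_smul, Complex.norm_real, norm_inv, norm_norm]
  have h1 : ‖T x‖ ≤ ‖T y‖ := by
    rw [hTy]
    have : 1 ≤ ‖x‖⁻¹ := one_le_inv₀ hxn |>.mpr hx1.le
    nlinarith [norm_nonneg (T x)]
  have h2 : ‖T y‖ ≤ κ := by simpa [hy1] using T.le_opNorm y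
  have h3 : dist ‖T y‖ κ < ε := by
    rw [Real.dist_eq, abs_lt]
    have := le_max_left (κ - ε) 0
    constructor <;> linarith
  have := hball h3
  have := main y hy1
  linarith

end Vale.Agent.P123
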