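import Mathlib

namespace Vale.Agent.P123

/-- The numerical range W(A) = { ⟨A x, x⟩ : ‖x‖ = 1 }.  Mathlib's inner product is linear in the
second slot, so ⟨A x, x⟩ (linear in the first slot) is `inner ℂ x (A x)`. -/
def numericalRange {H : Type*} [NormedAddCommGroup H] [InnerProductSpace ℂ H]
    (A : H →L[ℂ] H) : Set ℂ :=
  {z | ∃ x : H, ‖x‖ = 1 ∧ z = inner ℂ x (A x)}

/-- `C` is an admissible constant: ‖P(A)‖ ≤ C · sup_{z ∈ W(A)} |P(z)| for every nonzero complex
Hilbert space (in universe `u`), every bounded operator and every complex polynomial. -/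
def IsCrouzeixBound.{u} (C : ℝ) : Prop :=
  ∀ (H : Type u) [NormedAddCommGroup H] [InnerProductSpace ℂ H] [CompleteSpace H] [Nontrivial H]
    (A : H →L[ℂ] H) (P : Polynomial ℂ),
    ‖Polynomial.aeval A P‖ ≤ C * sSup ((fun z => ‖P.eval z‖) '' numericalRange A)

end Vale.Agent.P123
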