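import Mathlib
import Vale.Agent.P123.Defs
import Vale.Agent.P123.Cauchy

/-! Toeplitz-Hausdorff and a smooth convex curve around finitely many points. -/

namespace Vale.Agent.P123

open Complex Real
open scoped ComplexConjugate InnerProductSpace

theorem convex_numericalRange {H : Type*} [NormedAddCommGroup H] [InnerProductSpace ℂ H]
    (A : H →L[ℂ] H) : Convex ℝ (numericalRange A) := by
  rintro _ ⟨x, hx, rfl⟩ _ ⟨y, hy, rfl⟩ p q hp hq hpq
  set a := ⟪x, A x⟫_ℂ with ha
  set b := ⟪y, A y⟫_ℂ with hb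
  by_cases hab : b = a
  · refine ⟨x, hx, ?_⟩
    rw [hab, ← add_smul, hpq, one_smul]
  have hba : b - a ≠ 0 := sub_ne_zero.mpr hab
  have hsq : ∀ u : H, ⟪u, u⟫_ℂ = ((‖u‖ ^ 2 : ℝ) : ℂ) := by
    intro u; rw [inner_self_eq_norm_sq_to_K]; push_cast; rfl
  -- normalised form
  set B : H → H → ℂ := fun u v => (⟪u, A v⟫_ℂ - a * ⟪u, v⟫_ℂ) / (b - a) with hB
  have hBx : B x x = 0 := by simp only [hB]; rw [hsq, hx]; simp [ha]
  have hBy : B y y = 1 := by
    simp only [hB]; rw [hsq, hy, div_eq_one_iff_eq hba]; simp [hb]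
  obtain ⟨ω, hω1, hω2⟩ : ∃ ω : ℂ, ‖ω‖ = 1 ∧ (ω * B x y + conj ω * B y x).im = 0 := by
    set c := B x y - conj (B y x) with hc
    have key : ∀ ω : ℂ, (ω * B x y + conj ω * B y x).im = (ω * c).im := by
      intro ω
      simp only [hc, Complex.add_im, Complex.mul_im, Complex.conj_re, Complex.conj_im,
        Complex.sub_re, Complex.sub_im]
      ring
    by_cases h0 : c = 0
    · exact ⟨1, by simp, by rw [key, h0]; simp⟩
    · refine ⟨conj c / (‖c‖ : ℂ), ?_, ?_⟩
      · rw [norm_div, Complex.norm_conj, Complex.norm_real, norm_norm,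
          div_self (norm_ne_zero_iff.mpr h0)]
      · rw [key, div_mul_eq_mul_div, mul_comm, Complex.mul_conj, ← Complex.ofReal_div,
          Complex.ofReal_im]
  set z : ℝ → H := fun s => ((1 - s : ℝ) : ℂ) • x + ((s : ℂ) * ω) • y with hz
  have hωω : ω * conj ω = 1 := by
    rw [Complex.mul_conj, Complex.normSq_eq_norm_sq, hω1]; simp
  have hBz : ∀ s : ℝ, B (z s) (z s) =
      ((s ^ 2 + s * (1 - s) * (ω * B x y + conj ω * B y x).re : ℝ) : ℂ) := by
    intro s
    have e1 : B (z s) (z s) = ((1 - s : ℝ) : ℂ) ^ 2 * B x x + (s:ℂ) ^ 2 * (ω * conj ω) * B y y +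
        (s:ℂ) * ((1 - s : ℝ) : ℂ) * (ω * B x y + conj ω * B y x) := by
      simp only [hB, hz, map_add, map_smul, inner_add_left, inner_add_right, inner_smul_left,
        inner_smul_right, map_mul, Complex.conj_ofReal]
      field_simp
      ring
    have e2 : ω * B x y + conj ω * B y x = ((ω * B x y + conj ω * B y x).re : ℂ) := by
      apply Complex.ext <;> simp only [Complex.ofReal_re, Complex.ofReal_im, hω2]
    rw [e1, hBx, hBy, hωω, e2]
    push_cast
    simp only [Complex.ofReal_re]
    ring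
  set r := (ω * B x y + conj ω * B y x).re with hr
  set h : ℝ → ℝ := fun s => s ^ 2 + s * (1 - s) * r - q * ‖z s‖ ^ 2 with hh
  have hzc : Continuous z := by simp only [hz]; fun_prop
  have hhc : Continuous h := by simp only [hh]; fun_prop
  have h0 : h 0 ≤ 0 := by simp [hh, hz, hx, hq]
  have h1 : 0 ≤ h 1 := by
    simp only [hh, hz]
    simp [norm_smul, hω1, hy]
    linarith
  obtain ⟨s, hs, hs0⟩ := intermediate_value_Icc (zero_le_one) hhc.continuousOn ⟨h0, h1⟩
  have hzne : z s ≠ 0 := by
    intro hz0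
    have e : ((1 - s : ℝ) : ℂ) • x = -(((s : ℂ) * ω) • y) := eq_neg_of_add_eq_zero_left hz0
    have e1 : 1 - s = s := by
      have := congrArg norm e
      rw [norm_neg, norm_smul, norm_smul, norm_mul, hω1, hx, hy, Complex.norm_real,
        Complex.norm_real, Real.norm_eq_abs, Real.norm_eq_abs, abs_of_nonneg hs.1,
        abs_of_nonneg (by linarith [hs.2])] at this
      linarith
    have hs2 : s = 1 / 2 := by linarith
    have e2 : x = -(ω • y) := by
      rw [e1, mul_smul, ← smul_neg] at e
      have : (s:ℂ) ≠ 0 := by rw [hs2]; norm_num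
      exact smul_right_injective H this e
    have : B x x = B y y := by
      rw [e2]
      simp only [hB, map_neg, map_smul, inner_neg_left, inner_neg_right, inner_smul_left,
        inner_smul_right]
      congr 1
      linear_combination (⟪y, A y⟫_ℂ - ⟪-(ω • y), A (-(ω • y))⟫_ℂ * 0 - a * ⟪y, y⟫_ℂ) * hωω
    rw [hBx, hBy] at this
    exact zero_ne_one this
  have hzn : 0 < ‖z s‖ := norm_pos_iff.mpr hzne
  refine ⟨((‖z s‖⁻¹ : ℝ) : ℂ) • z s, ?_, ?_⟩
  · rw [norm_smul, Complex.norm_real, norm_inv, norm_norm, inv_mul_cancel₀ hzn.ne']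
  · have e1 : B (z s) (z s) = ((q * ‖z s‖ ^ 2 : ℝ) : ℂ) := by
      rw [hBz]; congr 1; simp only [hh] at hs0; linarith
    simp only [hB] at e1
    rw [div_eq_iff hba, hsq] at e1
    rw [map_smul, inner_smul_left, inner_smul_right, Complex.conj_ofReal]
    have hp' : (p:ℂ) = 1 - q := by
      have : p = 1 - q := by linarith
      rw [this]; push_cast; ring
    have hzn' : ((‖z s‖ : ℝ) : ℂ) ≠ 0 := by exact_mod_cast hzn.ne'
    rw [Complex.real_smul, Complex.real_smul, hp']
    push_cast at e1 ⊢
    field_simp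
    linear_combination -e1

theorem exists_curve {ι : Type*} [Fintype ι] [Nonempty ι] (w : ι → ℂ) (ε : ℝ) (hε : 0 < ε) :
    ∃ (g : ℝ → ℂ) (ρ : ℝ → ℝ), Continuous ρ ∧ (∀ t, 0 ≤ ρ t) ∧
      (∀ t, HasDerivAt g (I * ee t * ρ t) t) ∧ g (2 * π) = g 0 ∧
      (∀ t j, 2 * ε ≤ (conj (ee t) * (g t - w j)).re) ∧
      (∀ t, ∃ z ∈ convexHull ℝ (Set.range w), ‖g t - z‖ ≤ 3 * ε) := by
  set β : ℝ := Fintype.card ι / ε with hβ
  have hcard : (0:ℝ) < Fintype.card ι := by exact_mod_cast Fintype.card_pos
  have hβ0 : 0 < β := by positivity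
  set x : ι → ℝ → ℝ := fun j t => (w j).re * Real.cos t + (w j).im * Real.sin t with hx
  set y : ι → ℝ → ℝ := fun j t => (w j).im * Real.cos t - (w j).re * Real.sin t with hy
  have hxd : ∀ j t, HasDerivAt (x j) (y j t) t := by
    intro j t
    refine HasDerivAt.congr_deriv (((Real.hasDerivAt_cos t).const_mul (w j).re).add
      ((Real.hasDerivAt_sin t).const_mul (w j).im)) ?_
    simp only [hy]; ring
  have hyd : ∀ j t, HasDerivAt (y j) (-x j t) t := by
    intro j t
    refine HasDerivAt.congr_deriv (((Real.hasDerivAt_cos t).const_mul (w j).im).sub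
      ((Real.hasDerivAt_sin t).const_mul (w j).re)) ?_
    simp only [hx]; ring
  set E : ι → ℝ → ℝ := fun j t => Real.exp (β * x j t) with hE
  have hEd : ∀ j t, HasDerivAt (E j) (E j t * (β * y j t)) t := fun j t =>
    ((hxd j t).const_mul β).exp
  have hE0 : ∀ j t, 0 < E j t := fun j t => Real.exp_pos _
  set Z : ℝ → ℝ := fun t => ∑ j, E j t with hZ
  set Y : ℝ → ℝ := fun t => ∑ j, E j t * y j t with hY
  set X : ℝ → ℝ := fun t => ∑ j, E j t * x j t with hX
  set Q : ℝ → ℝ := fun t => ∑ j, E j t * y j t ^ 2 with hQ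
  have hZ0 : ∀ t, 0 < Z t := fun t =>
    Finset.sum_pos (fun j _ => hE0 j t) Finset.univ_nonempty
  have hZd : ∀ t, HasDerivAt Z (β * Y t) t := by
    intro t
    refine HasDerivAt.congr_deriv (HasDerivAt.fun_sum fun j _ => hEd j t) ?_
    simp only [hY, Finset.mul_sum]
    exact Finset.sum_congr rfl fun j _ => by ring
  have hYd : ∀ t, HasDerivAt Y (β * Q t - X t) t := by
    intro t
    refine HasDerivAt.congr_deriv (HasDerivAt.fun_sum fun j _ => (hEd j t).mul (hyd j t)) ?_
    simp only [hQ, hX, Finset.mul_sum, ← Finset.sum_sub_distrib]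
    exact Finset.sum_congr rfl fun j _ => by ring
  set s : ℝ → ℝ := fun t => Real.log (Z t) / β + 2 * ε with hs
  set s1 : ℝ → ℝ := fun t => Y t / Z t with hs1
  set s2 : ℝ → ℝ := fun t => ((β * Q t - X t) * Z t - Y t * (β * Y t)) / Z t ^ 2 with hs2
  have hsd : ∀ t, HasDerivAt s (s1 t) t := by
    intro t
    refine HasDerivAt.congr_deriv ((((hZd t).log (hZ0 t).ne').div_const β).add_const (2 * ε)) ?_
    simp only [hs1]; field_simp
  have hs1d : ∀ t, HasDerivAt s1 (s2 t) t := fun t => (hYd t).div (hZd t) (hZ0 t).ne'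
  have hxc : ∀ j, Continuous (x j) := by intro j; simp only [hx]; fun_prop
  have hyc : ∀ j, Continuous (y j) := by intro j; simp only [hy]; fun_prop
  have hEc : ∀ j, Continuous (E j) := by intro j; have := hxc j; simp only [hE]; fun_prop
  have hZc : Continuous Z := continuous_finsetSum _ fun j _ => hEc j
  have hYc : Continuous Y := continuous_finsetSum _ fun j _ => (hEc j).mul (hyc j)
  have hXc : Continuous X := continuous_finsetSum _ fun j _ => (hEc j).mul (hxc j)
  have hQc : Continuous Q := continuous_finsetSum _ fun j _ => (hEc j).mul ((hyc j).pow 2)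
  have hsc : Continuous s := continuous_iff_continuousAt.mpr fun t => (hsd t).continuousAt
  have hs2c : Continuous s2 := by
    apply Continuous.div (by fun_prop) (by fun_prop)
    intro t; exact (pow_pos (hZ0 t) 2).ne'
  have hlog : ∀ t j, x j t ≤ Real.log (Z t) / β := by
    intro t j
    rw [le_div_iff₀ hβ0, Real.le_log_iff_exp_le (hZ0 t), mul_comm]
    exact Finset.single_le_sum (f := fun j => E j t) (fun j _ => (hE0 j t).le) (Finset.mem_univ j)
  have hXZ : ∀ t, X t / Z t ≤ Real.log (Z t) / β := by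
    intro t
    rw [div_le_iff₀ (hZ0 t)]
    simp only [hX, hZ, Finset.mul_sum]
    apply Finset.sum_le_sum
    intro j _
    rw [mul_comm]
    exact mul_le_mul_of_nonneg_right (hlog t j) (hE0 j t).le
  have hXZ' : ∀ t, Real.log (Z t) / β - X t / Z t ≤ ε := by
    intro t
    have h1 : ∀ j, E j t * (Real.log (Z t) - β * x j t) ≤ Z t := by
      intro j
      have h2 : Real.log (Z t / E j t) ≤ Z t / E j t - 1 :=
        Real.log_le_sub_one_of_pos (div_pos (hZ0 t) (hE0 j t))
      rw [Real.log_div (hZ0 t).ne' (hE0 j t).ne'] at h2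
      have h3 : Real.log (E j t) = β * x j t := by simp only [hE]; exact Real.log_exp _
      rw [h3] at h2
      have h4 := mul_le_mul_of_nonneg_left h2 (hE0 j t).le
      have h5 : E j t * (Z t / E j t - 1) = Z t - E j t := by
        have := (hE0 j t).ne'; field_simp
      have := hE0 j t
      linarith
    have h6 : Z t * Real.log (Z t) - β * X t ≤ Fintype.card ι * Z t := by
      have := Finset.sum_le_sum fun j (_ : j ∈ Finset.univ) => h1 j
      simp only [Finset.sum_const, Finset.card_univ, nsmul_eq_mul] at this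
      refine le_of_eq_of_le ?_ this
      have e1 : Z t * Real.log (Z t) = ∑ j, E j t * Real.log (Z t) := by
        rw [← Finset.sum_mul]
      rw [e1]
      simp only [hX]
      rw [Finset.mul_sum, ← Finset.sum_sub_distrib]
      exact Finset.sum_congr rfl fun j _ => by ring
    have h7 : (Fintype.card ι : ℝ) = β * ε := (div_mul_cancel₀ _ hε.ne').symm
    rw [h7] at h6
    have hz := hZ0 t
    rw [div_sub_div _ _ hβ0.ne' hz.ne', div_le_iff₀ (mul_pos hβ0 hz)]
    nlinarith
  have hCS : ∀ t, Y t ^ 2 ≤ Q t * Z t := by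
    intro t
    have := Finset.sum_sq_le_sum_mul_sum_of_sq_le_mul Finset.univ
      (r := fun j => E j t * y j t) (f := fun j => E j t * y j t ^ 2) (g := fun j => E j t)
      (fun j _ => mul_nonneg (hE0 j t).le (sq_nonneg _)) (fun j _ => (hE0 j t).le)
      (fun j _ => le_of_eq (by ring))
    exact this
  have hee : ∀ t, ee t = (Real.cos t : ℂ) + (Real.sin t : ℂ) * I := by
    intro t; unfold ee; rw [Complex.exp_mul_I]; push_cast; ring
  have hconj : ∀ t, conj (ee t) * ee t = 1 := by
    intro t; rw [mul_comm, Complex.mul_conj, Complex.normSq_eq_norm_sq, norm_ee]; simp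
  have hw : ∀ t j, w j = ee t * ((x j t : ℂ) + I * (y j t : ℂ)) := by
    intro t j
    rw [hee]
    have h := Real.sin_sq_add_cos_sq t
    apply Complex.ext
    · simp only [hx, hy, Complex.mul_re, Complex.add_re, Complex.add_im, Complex.mul_im,
        Complex.ofReal_re, Complex.ofReal_im, Complex.I_re, Complex.I_im]
      linear_combination (-(w j).re) * h
    · simp only [hx, hy, Complex.mul_re, Complex.add_re, Complex.add_im, Complex.mul_im,
        Complex.ofReal_re, Complex.ofReal_im, Complex.I_re, Complex.I_im]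
      linear_combination (-(w j).im) * h
  refine ⟨fun t => ee t * ((s t : ℂ) + I * (s1 t : ℂ)), fun t => s t + s2 t, hsc.add hs2c,
    ?_, ?_, ?_, ?_, ?_⟩
  · intro t
    have hz := hZ0 t
    have h1 := hXZ t
    have h2 := hCS t
    have h3 : s2 t = β * (Q t * Z t - Y t ^ 2) / Z t ^ 2 - X t / Z t := by
      simp only [hs2]; field_simp; ring
    have h4 : 0 ≤ β * (Q t * Z t - Y t ^ 2) / Z t ^ 2 := by
      apply div_nonneg (mul_nonneg hβ0.le (by linarith)) (by positivity)
    simp only [hs]
    linarith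
  · intro t
    have h1 := (ee_hasDerivAt t).mul ((hsd t).ofReal_comp.add ((hs1d t).ofReal_comp.const_mul I))
    refine HasDerivAt.congr_deriv h1 ?_
    simp only [Pi.add_apply]
    push_cast
    linear_combination (ee t * (s1 t : ℂ)) * Complex.I_mul_I
  · simp only [hs, hs1, hZ, hY, hE, hx, hy, ee_two_pi, Real.cos_two_pi, Real.sin_two_pi,
      Real.cos_zero, Real.sin_zero]
  · intro t j
    have e : conj (ee t) * (ee t * ((s t : ℂ) + I * (s1 t : ℂ)) - w j) =
        ((s t - x j t : ℝ) : ℂ) + I * ((s1 t - y j t : ℝ) : ℂ) := by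
      rw [hw t j]; push_cast
      linear_combination ((s t : ℂ) + I * (s1 t : ℂ) - (x j t : ℂ) - I * (y j t : ℂ)) * hconj t
    rw [e]
    have := hlog t j
    simp only [Complex.add_re, Complex.ofReal_re, Complex.mul_re, Complex.I_re, Complex.I_im,
      Complex.ofReal_im, hs]
    linarith
  · intro t
    have hz := hZ0 t
    refine ⟨∑ j, (E j t / Z t) • w j, ?_, ?_⟩
    · apply (convex_convexHull ℝ _).sum_mem
      · intro j _; exact (div_pos (hE0 j t) hz).le
      · rw [← Finset.sum_div]; exact div_self hz.ne'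
      · intro j _; exact subset_convexHull ℝ _ ⟨j, rfl⟩
    · have e : ∑ j, (E j t / Z t) • w j = ee t * (((X t / Z t : ℝ) : ℂ) + I * (s1 t : ℂ)) := by
        simp only [hs1, hX, hY]
        push_cast
        simp only [Finset.sum_div, Finset.mul_sum, ← Finset.sum_add_distrib]
        apply Finset.sum_congr rfl
        intro j _
        rw [Complex.real_smul]
        conv_lhs => rw [hw t j]
        push_cast
        ring
      rw [e, ← mul_sub, norm_mul, norm_ee, one_mul]
      have e2 : ((s t : ℂ) + I * (s1 t : ℂ) - (((X t / Z t : ℝ) : ℂ) + I * (s1 t : ℂ))) =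
          ((s t - X t / Z t : ℝ) : ℂ) := by push_cast; ring
      rw [e2, Complex.norm_real, Real.norm_eq_abs, abs_le]
      have h1 := hXZ t
      have h2 := hXZ' t
      simp only [hs]
      constructor <;> linarith

end Vale.Agent.P123
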