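import Mathlib
import Vale.Agent.P123.Defs
import Vale.Agent.P123.Cauchy
import Vale.Agent.P123.Core
import Vale.Agent.P123.Geometry

namespace Vale.Agent.P123

open Complex Real MeasureTheory
open scoped ComplexConjugate InnerProductSpace

variable {H : Type*} [NormedAddCommGroup H] [InnerProductSpace ℂ H] [CompleteSpace H]

lemma unit_of_accretive (G : H →L[ℂ] H) (e : ℂ) (he : ‖e‖ = 1) (c : ℝ) (hc : 0 < c)
    (h : ∀ x, c * ‖x‖ ^ 2 ≤ (conj e * ⟪x, G x⟫_ℂ).re) :
    IsUnit G ∧ ‖Ring.inverse G‖ ≤ 1 / c := by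
  have h1 : ∀ x, c * ‖x‖ ^ 2 ≤ ‖⟪x, G x⟫_ℂ‖ := by
    intro x
    have := Complex.re_le_norm (conj e * ⟪x, G x⟫_ℂ)
    rw [norm_mul, Complex.norm_conj, he, one_mul] at this
    exact (h x).trans this
  have hU : IsUnit G := by
    apply ContinuousLinearMap.isUnit_of_forall_le_norm_inner_map G (c := ⟨c, hc.le⟩) hc
    intro x
    rw [← inner_conj_symm, RCLike.norm_conj, mul_comm]
    exact h1 x
  refine ⟨hU, ?_⟩
  apply ContinuousLinearMap.opNorm_le_bound _ (by positivity)
  intro y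
  set x := Ring.inverse G y with hx
  have e1 : G x = y := by
    have : (G * Ring.inverse G) y = y := by rw [Ring.mul_inverse_cancel _ hU]; rfl
    exact this
  have h2 := (h1 x).trans (norm_inner_le_norm _ _)
  rw [e1] at h2
  rcases (norm_nonneg x).eq_or_lt with h0 | h0
  · rw [← h0]; positivity
  · rw [div_mul_eq_mul_div, le_div_iff₀ hc]
    nlinarith

theorem bound_of_curve (A : H →L[ℂ] H) (g : ℝ → ℂ) (ρ : ℝ → ℝ) (hρc : Continuous ρ)
    (hρ : ∀ t, 0 ≤ ρ t) (hg : ∀ t, HasDerivAt g (I * ee t * ρ t) t) (hper : g (2 * π) = g 0)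
    (η : ℝ) (hη : 0 < η) (hW : ∀ t, ∀ w ∈ numericalRange A, η ≤ (conj (ee t) * (g t - w)).re)
    (P : Polynomial ℂ) (hP : ∀ t, ‖P.eval (g t)‖ ≤ 1) : ‖Polynomial.aeval A P‖ ≤ 2 := by
  have hgc : Continuous g := continuous_iff_continuousAt.mpr fun t => (hg t).continuousAt
  have hee := ee_continuous
  have hsq : ∀ u : H, ⟪u, u⟫_ℂ = ((‖u‖ ^ 2 : ℝ) : ℂ) := by
    intro u; rw [inner_self_eq_norm_sq_to_K]; push_cast; rfl
  have hconj : ∀ t, conj (ee t) * ee t = 1 := by
    intro t; rw [mul_comm, Complex.mul_conj, Complex.normSq_eq_norm_sq, norm_ee]; simp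
  have hacc : ∀ t x, η * ‖x‖ ^ 2 ≤ (conj (ee t) * ⟪x, (g t • (1 : H →L[ℂ] H) - A) x⟫_ℂ).re := by
    intro t x
    by_cases hx : x = 0
    · simp [hx]
    have hxn : 0 < ‖x‖ := norm_pos_iff.mpr hx
    set y : H := ((‖x‖⁻¹ : ℝ) : ℂ) • x with hy
    have hy1 : ‖y‖ = 1 := by
      rw [hy, norm_smul, Complex.norm_real, norm_inv, norm_norm, inv_mul_cancel₀ hxn.ne']
    have h1 := hW t _ ⟨y, hy1, rfl⟩
    have e : conj (ee t) * ⟪x, (g t • (1 : H →L[ℂ] H) - A) x⟫_ℂ =
        ((‖x‖ ^ 2 : ℝ) : ℂ) * (conj (ee t) * (g t - ⟪y, A y⟫_ℂ)) := by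
      simp only [hy, sub_apply, smul_apply,
        one_apply_eq_self, inner_sub_right, inner_smul_right, map_smul, inner_smul_left,
        Complex.conj_ofReal, hsq]
      have : ((‖x‖ : ℝ) : ℂ) ≠ 0 := by exact_mod_cast hxn.ne'
      push_cast
      field_simp
    rw [e, Complex.re_ofReal_mul, mul_comm]
    gcongr
  have hGam : ∀ u ∈ Set.Icc (0:ℝ) 1, ∀ t, IsUnit (Gam A g u t) ∧
      ‖Ring.inverse (Gam A g u t)‖ ≤ 1 / min 1 η := by
    intro u hu t
    apply unit_of_accretive _ (ee t) (norm_ee t) _ (lt_min one_pos hη)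
    intro x
    have e : conj (ee t) * ⟪x, Gam A g u t x⟫_ℂ = (((1 - u) * ‖x‖ ^ 2 : ℝ) : ℂ) +
        (u : ℂ) * (conj (ee t) * ⟪x, (g t • (1 : H →L[ℂ] H) - A) x⟫_ℂ) := by
      simp only [Gam, sub_apply, smul_apply,
        one_apply_eq_self, inner_sub_right, inner_smul_right, hsq]
      push_cast
      linear_combination ((1 - (u:ℂ)) * (‖x‖ : ℂ) ^ 2) * hconj t
    rw [e, Complex.add_re, Complex.ofReal_re, Complex.re_ofReal_mul]
    have h1 := hacc t x
    have h2 : min 1 η ≤ 1 := min_le_left _ _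
    have h3 : min 1 η ≤ η := min_le_right _ _
    have h4 : 0 ≤ ‖x‖ ^ 2 := by positivity
    have h5 := mul_le_mul_of_nonneg_left h1 hu.1
    have h6 : 0 ≤ (1 - u) * (‖x‖ ^ 2 * (1 - min 1 η)) :=
      mul_nonneg (by linarith [hu.2]) (mul_nonneg h4 (by linarith))
    have h7 : 0 ≤ u * (‖x‖ ^ 2 * (η - min 1 η)) :=
      mul_nonneg hu.1 (mul_nonneg h4 (by linarith))
    nlinarith
  have hU1 : ∀ t, IsUnit (g t • (1 : H →L[ℂ] H) - A) := by
    intro t
    have := (hGam 1 ⟨zero_le_one, le_rfl⟩ t).1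
    simpa [Gam] using this
  set R : ℝ → H →L[ℂ] H := fun t => Ring.inverse (g t • (1 : H →L[ℂ] H) - A) with hR
  have hRc : Continuous R := continuous_inv_curve _ (by fun_prop) hU1
  have hpi : (0:ℝ) < 2 * π := by positivity
  apply core (Polynomial.aeval A P) (fun t => (((ρ t / (2 * π) : ℝ) : ℂ) * ee t) • R t)
    (fun t => P.eval (g t)) (2 * π) hpi.le (by fun_prop) (P.continuous.comp hgc) hP
  · intro t u
    have hc : Commute (g t • (1 : H →L[ℂ] H) - A) (Polynomial.aeval A P) := by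
      apply Commute.sub_left
      · exact (Commute.one_left _).smul_left _
      · have : Commute (Polynomial.aeval A (Polynomial.X : Polynomial ℂ)) (Polynomial.aeval A P) :=
          (Commute.all _ _).map _
        simpa using this
    obtain ⟨x, hx⟩ := hU1 t
    have hc2 : Commute (R t) (Polynomial.aeval A P) := by
      simp only [hR]
      rw [← hx, Ring.inverse_unit]
      rw [← hx] at hc
      exact Commute.units_inv_left hc
    have : (R t * Polynomial.aeval A P) u = (Polynomial.aeval A P * R t) u := by rw [hc2.eq]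
    simp only [smul_apply, map_smul]
    congr 1
  · intro t u
    set v := R t u with hv
    have e1 : (g t • (1 : H →L[ℂ] H) - A) v = u := by
      have : ((g t • (1 : H →L[ℂ] H) - A) * R t) u = u := by
        simp only [hR]; rw [Ring.mul_inverse_cancel _ (hU1 t)]; rfl
      exact this
    have h1 := hacc t v
    rw [e1] at h1
    simp only [smul_apply, inner_smul_right]
    rw [mul_assoc, Complex.re_ofReal_mul, ← hv]
    apply mul_nonneg (div_nonneg (hρ t) hpi.le)
    have e2 : (ee t * ⟪u, v⟫_ℂ).re = (conj (ee t) * ⟪v, u⟫_ℂ).re := by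
      rw [← Complex.conj_re, map_mul, inner_conj_symm]
    rw [e2]
    exact le_trans (by positivity) h1
  · intro k u v
    have h := cauchy_poly_functional A g (fun t => I * ee t * ρ t) hg (by fun_prop) hper _
      (fun u hu t => (hGam u hu t).1) (fun u hu t => (hGam u hu t).2) (P ^ k)
      ((innerSL ℂ v).comp (ContinuousLinearMap.apply ℂ H u))
    simp only [ContinuousLinearMap.comp_apply, ContinuousLinearMap.apply_apply, innerSL_apply_apply,
      Polynomial.eval_pow, map_pow] at h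
    have hne : (2 * π * I : ℂ) ≠ 0 := by
      simp [Real.pi_ne_zero]
    apply mul_left_cancel₀ hne
    rw [← h, ← intervalIntegral.integral_const_mul]
    congr 1
    funext t
    simp only [smul_apply, inner_smul_right, hR]
    have : (π : ℂ) ≠ 0 := by exact_mod_cast Real.pi_ne_zero
    push_cast
    field_simp

omit [CompleteSpace H] in
lemma numericalRange_subset (A : H →L[ℂ] H) : numericalRange A ⊆ Metric.closedBall 0 ‖A‖ := by
  rintro _ ⟨x, hx, rfl⟩
  rw [mem_closedBall_zero_iff]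
  calc ‖⟪x, A x⟫_ℂ‖ ≤ ‖x‖ * ‖A x‖ := norm_inner_le_norm _ _
    _ ≤ ‖x‖ * (‖A‖ * ‖x‖) := by gcongr; exact A.le_opNorm x
    _ = ‖A‖ := by rw [hx]; ring

omit [CompleteSpace H] in
lemma bddAbove_image (A : H →L[ℂ] H) (P : Polynomial ℂ) :
    BddAbove ((fun z => ‖P.eval z‖) '' numericalRange A) :=
  ((isCompact_closedBall (0:ℂ) ‖A‖).bddAbove_image
    (P.continuous.norm.continuousOn)).mono (Set.image_mono (numericalRange_subset A))

theorem crouzeix [Nontrivial H] (A : H →L[ℂ] H) (P : Polynomial ℂ) :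
    ‖Polynomial.aeval A P‖ ≤ 2 * sSup ((fun z => ‖P.eval z‖) '' numericalRange A) := by
  set M := sSup ((fun z => ‖P.eval z‖) '' numericalRange A) with hM
  have hMle : ∀ w ∈ numericalRange A, ‖P.eval w‖ ≤ M := fun w hw =>
    le_csSup (bddAbove_image A P) ⟨w, hw, rfl⟩
  obtain ⟨x0, hx0⟩ := exists_norm_eq H zero_le_one
  have hne : (numericalRange A).Nonempty := ⟨_, x0, hx0, rfl⟩
  have hM0 : 0 ≤ M := (norm_nonneg _).trans (hMle _ ⟨x0, hx0, rfl⟩)
  apply le_of_forall_pos_le_add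
  intro θ hθ
  have huc := (isCompact_closedBall (0:ℂ) (‖A‖ + 1)).uniformContinuousOn_of_continuous
    (P.continuous.continuousOn)
  obtain ⟨δ, hδ, hδ'⟩ := Metric.uniformContinuousOn_iff.mp huc (θ / 2) (by positivity)
  set ε := min δ 1 / 4 with hε
  have hε0 : 0 < ε := by positivity
  have hε1 : 3 * ε < δ := by have := min_le_left δ 1; simp only [hε]; linarith
  have hε2 : 3 * ε ≤ 1 := by have := min_le_right δ 1; simp only [hε]; linarith
  have htb : TotallyBounded (numericalRange A) :=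
    (isCompact_closedBall (0:ℂ) ‖A‖).totallyBounded.subset (numericalRange_subset A)
  obtain ⟨S, hSW, hSf, hScov⟩ := Metric.finite_approx_of_totallyBounded htb ε hε0
  have hSne : S.Nonempty := by
    obtain ⟨w, hw⟩ := hne
    obtain ⟨y, hy, _⟩ := Set.mem_iUnion₂.mp (hScov hw)
    exact ⟨y, hy⟩
  have : Fintype S := hSf.fintype
  have : Nonempty S := hSne.to_subtype
  obtain ⟨g, ρ, hρc, hρ, hg, hper, hsep, hnear⟩ := exists_curve (fun j : S => (j : ℂ)) ε hε0
  set M' := M + θ / 2 with hM'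
  have hM'0 : 0 < M' := by positivity
  have key := bound_of_curve A g ρ hρc hρ hg hper ε hε0 ?_ (Polynomial.C ((M'⁻¹ : ℝ) : ℂ) * P) ?_
  · rw [map_mul, Polynomial.aeval_C, Algebra.algebraMap_eq_smul_one, smul_mul_assoc, one_mul,
      norm_smul, Complex.norm_real, norm_inv, Real.norm_eq_abs, abs_of_pos hM'0,
      inv_mul_le_iff₀ hM'0] at key
    linarith
  · intro t w hw
    obtain ⟨y, hy, hyw⟩ := Set.mem_iUnion₂.mp (hScov hw)
    have h1 := hsep t ⟨y, hy⟩
    have h2 : conj (ee t) * (g t - w) = conj (ee t) * (g t - y) + conj (ee t) * (y - w) := by ring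
    have h3 := Complex.abs_re_le_norm (conj (ee t) * (y - w))
    rw [norm_mul, Complex.norm_conj, norm_ee, one_mul] at h3
    have h4 : ‖y - w‖ < ε := by rw [← dist_eq_norm, dist_comm]; exact hyw
    rw [h2, Complex.add_re]
    have := (abs_le.mp h3).1
    simp only at h1
    linarith
  · intro t
    obtain ⟨z, hz, hzg⟩ := hnear t
    have hzW : z ∈ numericalRange A := by
      apply convexHull_min _ (convex_numericalRange A) hz
      rintro _ ⟨j, rfl⟩
      exact hSW j.2
    have hz1 := numericalRange_subset A hzW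
    rw [mem_closedBall_zero_iff] at hz1
    have hg1 : ‖g t‖ ≤ ‖A‖ + 1 := by
      calc ‖g t‖ = ‖(g t - z) + z‖ := by ring_nf
        _ ≤ ‖g t - z‖ + ‖z‖ := norm_add_le _ _
        _ ≤ ‖A‖ + 1 := by linarith
    have h1 := hδ' (g t) (by rwa [mem_closedBall_zero_iff]) z
      (by rw [mem_closedBall_zero_iff]; linarith) (by rw [dist_eq_norm]; linarith)
    rw [dist_eq_norm] at h1
    have h2 : ‖P.eval (g t)‖ ≤ M' := by
      calc ‖P.eval (g t)‖ = ‖(P.eval (g t) - P.eval z) + P.eval z‖ := by ring_nf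
        _ ≤ ‖P.eval (g t) - P.eval z‖ + ‖P.eval z‖ := norm_add_le _ _
        _ ≤ M' := by have := hMle z hzW; linarith
    rw [Polynomial.eval_mul, Polynomial.eval_C, norm_mul, Complex.norm_real, norm_inv,
      Real.norm_eq_abs, abs_of_pos hM'0, inv_mul_le_iff₀ hM'0]
    linarith

theorem two_le_of_bound.{u} (C : ℝ) (hC : IsCrouzeixBound.{u} C) : 2 ≤ C := by
  let E := EuclideanSpace ℂ (ULift.{u} (Fin 2))
  let e0 : E := EuclideanSpace.single (ULift.up 0) 1
  let e1 : E := EuclideanSpace.single (ULift.up 1) 1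
  let A : E →L[ℂ] E := (innerSL ℂ e1).smulRight e0
  have hA : ∀ x : E, A x = (x (ULift.up 1)) • e0 := by
    intro x
    have : ⟪e1, x⟫_ℂ = x (ULift.up 1) := by
      have := EuclideanSpace.inner_single_left (𝕜 := ℂ) (ULift.up 1 : ULift.{u} (Fin 2)) 1 x
      simpa using this
    simp only [A, ContinuousLinearMap.smulRight_apply, innerSL_apply_apply, this]
  have h := hC E A Polynomial.X
  rw [Polynomial.aeval_X] at h
  have h1 : 1 ≤ ‖A‖ := by
    have := A.le_opNorm e1
    rw [hA] at this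
    have n0 : ‖e0‖ = 1 := by
      have := PiLp.norm_single 2 (fun _ : ULift.{u} (Fin 2) => ℂ) (ULift.up 0) 1
      rw [norm_one] at this
      exact this
    have n1 : ‖e1‖ = 1 := by
      have := PiLp.norm_single 2 (fun _ : ULift.{u} (Fin 2) => ℂ) (ULift.up 1) 1
      rw [norm_one] at this
      exact this
    have n2 : e1 (ULift.up 1) = 1 := by simp [e1]
    rwa [n2, one_smul, n0, n1, mul_one] at this
  have h2 : sSup ((fun z => ‖(Polynomial.X : Polynomial ℂ).eval z‖) '' numericalRange A) ≤ 1 / 2 := by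
    apply Real.sSup_le _ (by norm_num)
    rintro _ ⟨_, ⟨x, hx, rfl⟩, rfl⟩
    simp only [Polynomial.eval_X]
    rw [hA, inner_smul_right, EuclideanSpace.inner_single_right, norm_mul]
    have h3 : ‖x‖ ^ 2 = ‖x (ULift.up 0)‖ ^ 2 + ‖x (ULift.up 1)‖ ^ 2 := by
      rw [EuclideanSpace.norm_sq_eq, ← Equiv.ulift.symm.sum_comp, Fin.sum_univ_two]
      rfl
    rw [hx] at h3
    simp only [one_mul, RCLike.norm_conj]
    nlinarith [sq_nonneg (‖x (ULift.up 0)‖ - ‖x (ULift.up 1)‖)]
  have h4 : 0 ≤ sSup ((fun z => ‖(Polynomial.X : Polynomial ℂ).eval z‖) '' numericalRange A) := by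
    apply Real.sSup_nonneg
    rintro _ ⟨_, _, rfl⟩
    exact norm_nonneg _
  by_contra hlt
  push Not at hlt
  rcases le_or_gt 0 C with hC0 | hC0
  · have := mul_le_mul_of_nonneg_left h2 hC0
    linarith
  · have := mul_nonpos_of_nonpos_of_nonneg hC0.le h4
    linarith

end Vale.Agent.P123
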